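import Vale.Agent.P301WS.St
import Vale.Agent.P301W.Pre

/-!
# P301W: the same statement for the definitions of `P301WS.St`
-/

open scoped Manifold ContDiff Topology ComplexConjugate
open Vale.Agent.P272.K Vale.Agent.P301.H599

noncomputable section

namespace Vale.Agent.P301WS

variable {d : ℕ} {X : Type} [TopologicalSpace X] [ChartedSpace (Cm d) X]

theorem isForm_eq : @IsForm d X _ _ = @P301W.IsForm d X _ _ := by
  funext U k a
  exact propext ⟨fun h => ⟨h.1, h.2⟩, fun h => ⟨h.1, h.2⟩⟩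

namespace G

/-- a space of forms as a type -/
def Z (C : Submodule ℝ (Chart d X → Cm d → Alt d 2)) : Type := C

variable {C : Submodule ℝ (Chart d X → Cm d → Alt d 2)}

instance : AddCommGroup (Z C) := C.addCommGroup

instance : Module ℝ (Z C) := C.module

variable {B : Submodule ℝ (Z C)}

/-- `ClassOf` for a quotient of a space of forms -/
def ClassOf (w : Chart d X → Cm d → Matrix (Fin d) (Fin d) ℂ) (c : Z C ⧸ B) : Prop :=
  ∃ a : Z C, Submodule.Quotient.mk a = c ∧ ∀ e x, At e x → ∀ u v : Cm d,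
    (a.1 e (e x) ![u, v] : ℂ) =
      Complex.I * ∑ j, ∑ k, w e (e x) j k * (u j * conj (v k) - v j * conj (u k))

/-- `IsC1` for a quotient of a space of forms -/
def IsC1 {ι : Type} (L : LineBundle d X ι) (c : Z C ⧸ B) : Prop :=
  ∃ ρ, IsMetric L ρ ∧ ClassOf (curvature L ρ) ((2 * Real.pi) • c)

/-- `Weil` for a predicate `P` -/
def Weil (P : Set X → ∀ {k : ℕ}, (Chart d X → Cm d → Alt d k) → Prop)
    (a : Chart d X → Cm d → Alt d 2) : Prop :=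
  ∃ (ι : Type) (U : ι → Set X) (b : ι → Chart d X → Cm d → Alt d 1)
    (f : ι → ι → Chart d X → Cm d → Alt d 0), (∀ i, IsOpen (U i)) ∧ (∀ x, ∃ i, x ∈ U i) ∧
    (∀ i, P (U i) (b i)) ∧ (∀ i j, P (U i ∩ U j) (f i j)) ∧
    ∀ e x, At e x → ∀ i, x ∈ U i → a e (e x) = dd (b i e) (e x) ∧ ∀ j, x ∈ U j →
      b i e (e x) - b j e (e x) = dd (f i j e) (e x) ∧ ∀ k, x ∈ U k →
        ∃ m : ℤ, (f i j e (e x) + f j k e (e x) - f i k e (e x)) ![] = m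

/-- `Integral` for a quotient of a space of forms -/
def Integral (P : Set X → ∀ {k : ℕ}, (Chart d X → Cm d → Alt d k) → Prop) (c : Z C ⧸ B) : Prop :=
  ∃ a : Z C, Submodule.Quotient.mk a = c ∧ Weil P a.1

/-- `Fujiki` for a quotient of a space of forms -/
def Fujiki (n : ℕ) (q : QuadraticForm ℝ (Z C ⧸ B)) : Prop :=
  ∃ c : ℝ, 0 < c ∧ ∀ a : Z C, IsIntegral (fun e z => top (a.1 e z))
    (c * q (Submodule.Quotient.mk a) ^ n)

variable (B) in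
/-- the conclusion -/
def St (P : Set X → ∀ {k : ℕ}, (Chart d X → Cm d → Alt d k) → Prop) (n : ℕ) : Prop :=
  (∃ (r : ℕ) (b : Module.Basis (Fin r) ℝ (Z C ⧸ B)),
    ∀ c, Integral P c ↔ c ∈ Submodule.span ℤ (Set.range b)) ∧
  (∃ q : QuadraticForm ℝ (Z C ⧸ B), Fujiki n q ∧ (∀ c, Integral P c → ∃ m : ℤ, q c = m) ∧
    sigPos q = 3 ∧ sigNeg q + 3 = Module.finrank ℝ (Z C ⧸ B)) ∧
  ∀ (ι : Type) (L : LineBundle d X ι), (∃! c : Z C ⧸ B, IsC1 L c) ∧ ∀ c : Z C ⧸ B, IsC1 L c →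
    Integral P c ∧
    (c ∈ @closure _ (moduleTopology ℝ (Z C ⧸ B)) {c | ∃ w, IsKahler w ∧ ClassOf w c} →
      ((∃ q : QuadraticForm ℝ (Z C ⧸ B), Fujiki n q ∧ q c = 0) ∨ ∃ a : Z C,
        Submodule.Quotient.mk a = c ∧ IsIntegral (fun e z => top (a.1 e z)) 0) →
      ∃ m : ℕ, 0 < m ∧ ∀ x : X, ∃ f : ι → X → ℂ, Sec L m f ∧ ∃ i, x ∈ L.U i ∧ f i x ≠ 0)

theorem of_concl {n : ℕ} (h : P301W.Concl n d X) :
    St (C := P301W.Closed d X) (P301W.B2 d X) P301W.IsForm n :=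
  ⟨h.1, h.2.1.imp fun _ hq => ⟨hq.1, hq.2, hq.3, hq.4⟩, h.2.2⟩

theorem move {n : ℕ} (h : P301W.Concl n d X)
    (P : Set X → ∀ {k : ℕ}, (Chart d X → Cm d → Alt d k) → Prop) (hP : @P = @P301W.IsForm d X _ _)
    (hC : ∀ a, a ∈ C ↔ P Set.univ a ∧ ∀ e x, At e x → dd (a e) (e x) = 0)
    (hB : ∀ a : Z C, a ∈ B ↔ ∃ b : Chart d X → Cm d → Alt d 1, P Set.univ b ∧
      ∀ e x, At e x → a.1 e (e x) = dd (b e) (e x)) : St B P n := by
  subst hP
  obtain rfl : C = P301W.Closed d X := Submodule.ext hC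
  obtain rfl : B = P301W.B2 d X := Submodule.ext hB
  exact of_concl h

end G

theorem st {n : ℕ} (h : P301W.Concl n d X) : G.St (C := Closed d X) (B2 d X) IsForm n :=
  G.move h _ isForm_eq (fun _ => Iff.rfl) fun _ => Iff.rfl

theorem literal_of (h : P301Z.Lat.LAT) (nefl : P301Z.NEFL) (hf : P301W.Full) :
    ∀ (n : ℕ), 1 ≤ n → ∀ (X : Type) [TopologicalSpace X] [T2Space X] [CompactSpace X]
      [SimplyConnectedSpace X] [ChartedSpace (Cm (2 * n)) X] [IsManifold 𝓘(ℂ, Cm (2 * n)) ω X]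
      (w s : Chart (2 * n) X → Cm (2 * n) → Matrix (Fin (2 * n)) (Fin (2 * n)) ℂ),
      IsSymplectic (2 * n) X w s →
      (∃ (r : ℕ) (b : Module.Basis (Fin r) ℝ (H2 (2 * n) X)),
        ∀ c, Integral c ↔ c ∈ Submodule.span ℤ (Set.range b)) ∧
      (∃ q : QuadraticForm ℝ (H2 (2 * n) X), IsBBF n q) ∧
      ∀ (ι : Type) (L : LineBundle (2 * n) X ι), (∃! c, IsC1 L c) ∧ ∀ c, IsC1 L c → Integral c ∧
        ∀ q : QuadraticForm ℝ (H2 (2 * n) X), Fujiki n q → c ∈ NefCone (2 * n) X → q c = 0 →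
          ∃ m : ℕ, 0 < m ∧ ∀ x : X, ∃ f : ι → X → ℂ, Sec L m f ∧ ∃ i, x ∈ L.U i ∧ f i x ≠ 0 := by
  intro n hn X _ _ _ _ _ _ w s hs
  obtain ⟨h1, ⟨q, h2⟩, h3⟩ := st (P301W.concl h nefl hf n hn _ (two_mul n) X w s hs)
  exact ⟨h1, ⟨q, h2.1, h2.2.1, h2.2.2.1, h2.2.2.2⟩, fun ι L => ⟨(h3 ι L).1, fun c hc =>
    ⟨((h3 ι L).2 c hc).1, fun q hq h4 h5 => ((h3 ι L).2 c hc).2 h4 (.inl ⟨q, hq, h5⟩)⟩⟩⟩

end Vale.Agent.P301WS
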